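import Vale.Agent.P130.Lebesgue.Tiling.Basic

/-! The tiling: at a base point the centre is the signed divisor of `(M!)^R` with the largest
label; read from the centre this gives finitely many shapes, constant on the cells of a grid. -/

namespace Vale.Agent.P130.Lebesgue.Tiling

open MeasureTheory Finset Filter
open scoped Topology

/-- The nonzero integers dividing `D`. -/
noncomputable def sdiv (D : ℕ) : Finset ℤ := (Icc (-(D : ℤ)) D).filter fun f => f ≠ 0 ∧ f ∣ (D : ℤ)

theorem mem_sdiv {D : ℕ} (hD : 0 < D) {f : ℤ} : f ∈ sdiv D ↔ f ∣ (D : ℤ) := by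
  simp only [sdiv, mem_filter, Finset.mem_Icc]
  refine ⟨fun h => h.2.2, fun h => ?_⟩
  have h0 : f ≠ 0 := by
    rintro rfl
    rw [zero_dvd_iff] at h
    omega
  have h1 := Int.le_of_dvd (by omega) h
  have h2 := Int.le_of_dvd (by omega) (neg_dvd.2 h)
  exact ⟨⟨by omega, h1⟩, h0, h⟩

theorem card_sdiv {D : ℕ} (hD : 0 < D) : (sdiv D).card = 2 * D.divisors.card := by
  classical
  have e : sdiv D = D.divisors.image (fun d : ℕ => (d : ℤ)) ∪
      D.divisors.image (fun d : ℕ => -(d : ℤ)) := by
    ext f
    rw [mem_sdiv hD, mem_union, mem_image, mem_image]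
    constructor
    · intro h
      have hf : f.natAbs ∈ D.divisors :=
        Nat.mem_divisors.2 ⟨by simpa using Int.natAbs_dvd_natAbs.2 h, hD.ne'⟩
      rcases Int.natAbs_eq f with h' | h'
      · exact Or.inl ⟨f.natAbs, hf, h'.symm⟩
      · exact Or.inr ⟨f.natAbs, hf, h'.symm⟩
    · rintro (⟨d, hd, rfl⟩ | ⟨d, hd, rfl⟩)
      · exact Int.natCast_dvd_natCast.2 (Nat.dvd_of_mem_divisors hd)
      · exact neg_dvd.2 (Int.natCast_dvd_natCast.2 (Nat.dvd_of_mem_divisors hd))
  rw [e, card_union_of_disjoint, card_image_of_injective _ Nat.cast_injective,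
    card_image_of_injective _ (fun a b h => by simpa using h), two_mul]
  rw [disjoint_left]
  intro f h1 h2
  obtain ⟨d, hd, rfl⟩ := mem_image.1 h1
  obtain ⟨d', hd', h'⟩ := mem_image.1 h2
  have := Nat.pos_of_mem_divisors hd
  have := Nat.pos_of_mem_divisors hd'
  omega

/-- Almost no new signed divisors appear when a large power grows by one. -/
theorem exists_slow (B : ℕ) (hB : 0 < B) {ε : ℝ} (hε : 0 < ε) :
    ∃ R : ℕ, 1 ≤ R ∧ (1 - ε) * ((sdiv (B ^ (R + 1))).card : ℝ) ≤ ((sdiv (B ^ R)).card : ℝ) := by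
  have hcard : ∀ R : ℕ, 1 ≤ R → ((sdiv (B ^ R)).card : ℝ) =
      2 * ∏ p ∈ B.primeFactors, ((R : ℝ) * (B.factorization p : ℝ) + 1) := by
    intro R hR
    rw [card_sdiv (pow_pos hB R), Nat.card_divisors (pow_pos hB R).ne',
      Nat.primeFactors_pow _ (by omega)]
    simp [Nat.factorization_pow]
  have ht : Tendsto (fun R : ℕ => ∏ p ∈ B.primeFactors,
      (((R : ℝ) * (B.factorization p : ℝ) + 1) / (((R + 1 : ℕ) : ℝ) * (B.factorization p : ℝ) + 1)))
      atTop (𝓝 1) := by
    have : Tendsto (fun R : ℕ => ∏ p ∈ B.primeFactors,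
      (((R : ℝ) * (B.factorization p : ℝ) + 1) / (((R + 1 : ℕ) : ℝ) * (B.factorization p : ℝ) + 1)))
      atTop (𝓝 (∏ _p ∈ B.primeFactors, (1 : ℝ))) := by
      refine tendsto_finsetProd _ fun p hp => ?_
      set v := (B.factorization p : ℝ)
      have hv : 1 ≤ v := by
        have : 1 ≤ B.factorization p := by
          rw [Nat.one_le_iff_ne_zero, ← Finsupp.mem_support_iff, Nat.support_factorization]
          exact hp
        simpa [v] using (by exact_mod_cast this : (1 : ℝ) ≤ (B.factorization p : ℝ))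
      have hlim : Tendsto (fun R : ℕ => v / (((R + 1 : ℕ) : ℝ) * v + 1)) atTop (𝓝 0) := by
        refine tendsto_const_nhds.div_atTop (tendsto_atTop_add_const_right _ _
          (Tendsto.atTop_mul_const (by linarith) ?_))
        exact tendsto_natCast_atTop_atTop.comp (tendsto_add_atTop_nat 1)
      have := (tendsto_const_nhds (x := (1 : ℝ))).sub hlim
      rw [sub_zero] at this
      refine this.congr fun R => ?_
      have : (0 : ℝ) < ((R + 1 : ℕ) : ℝ) * v + 1 := by positivity
      rw [eq_div_iff this.ne', sub_mul, div_mul_cancel₀ _ this.ne']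
      push_cast
      ring
    simpa using this
  obtain ⟨R₀, hR₀⟩ := eventually_atTop.1
    (ht.eventually (lt_mem_nhds (show (1 : ℝ) - ε < 1 by linarith)))
  refine ⟨max R₀ 1, le_max_right _ _, ?_⟩
  have h := hR₀ _ (le_max_left R₀ 1)
  rw [Finset.prod_div_distrib, lt_div_iff₀ (by positivity)] at h
  rw [hcard _ (by omega), hcard _ (le_max_right _ _)]
  linarith [h]

theorem sum_ind {α : Type} (E : Finset α) (p : α → Prop) [DecidablePred p] :
    ∑ f ∈ E, ind (p f) = ((E.filter p).card : ℝ) := by
  rw [card_filter]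
  push_cast
  refine sum_congr rfl fun f _ => ?_
  by_cases h : p f
  · rw [ind_pos h, if_pos h]
  · rw [ind_neg h, if_neg h]

variable (q : ℕ) [NeZero q] (L : Equiv.Perm (Fin q)) (D : ℕ)

/-- The label seen at a point of the circle. -/
noncomputable def lab (y : ℝ) : Fin q := L ⟨cellAt q y, cellAt_lt (NeZero.pos q) y⟩

/-- `f` has the largest label among the signed divisors, seen from `u`. -/
def Wins (f : ℤ) (u : ℝ) : Prop :=
  f ∈ sdiv D ∧ ∀ g ∈ sdiv D, g ≠ f →
    lab q L ((((D : ℤ) * g : ℤ) : ℝ) * u) < lab q L ((((D : ℤ) * f : ℤ) : ℝ) * u)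

open Classical in
/-- The multipliers that lead to the centre `z`. -/
noncomputable def pat (z : ℝ) : Finset ℤ :=
  (sdiv D).filter fun f => ∀ g ∈ sdiv D, g ≠ f →
    lab q L ((((D : ℤ) / f * g : ℤ) : ℝ) * z) < lab q L ((((D : ℤ) : ℤ) : ℝ) * z)

variable {q L D}

theorem mem_pat_mul (hD : 0 < D) (f : ℤ) (u : ℝ) :
    f ∈ pat q L D ((f : ℝ) * u) ↔ Wins q L D f u := by
  classical
  simp only [pat, mem_filter, Wins, and_congr_right_iff]
  intro hf
  have hdiv : (D : ℤ) / f * f = D := Int.ediv_mul_cancel ((mem_sdiv hD).1 hf)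
  refine forall_congr' fun g => forall_congr' fun _ => forall_congr' fun _ => ?_
  have e1 : (((D : ℤ) / f * g : ℤ) : ℝ) * ((f : ℝ) * u) = (((D : ℤ) * g : ℤ) : ℝ) * u := by
    rw [← mul_assoc, ← Int.cast_mul, show (D : ℤ) / f * g * f = (D : ℤ) / f * f * g by ring, hdiv]
  have e2 : ((((D : ℤ) : ℤ) : ℝ)) * ((f : ℝ) * u) = (((D : ℤ) * f : ℤ) : ℝ) * u := by
    push_cast; ring
  rw [e1, e2]

theorem wins_unique {f g : ℤ} {u : ℝ} (hf : Wins q L D f u) (hg : Wins q L D g u) : f = g := by
  by_contra h
  exact lt_irrefl _ ((hf.2 g hg.1 (Ne.symm h)).trans (hg.2 f hf.1 h))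

theorem measurable_lab (a : ℤ) : Measurable fun u : ℝ => lab q L ((a : ℝ) * u) := by
  have h1 : Measurable fun y : ℝ => (⟨cellAt q y, cellAt_lt (NeZero.pos q) y⟩ : Fin q) := by
    refine measurable_to_countable' fun c => ?_
    have : (fun y : ℝ => (⟨cellAt q y, cellAt_lt (NeZero.pos q) y⟩ : Fin q)) ⁻¹' {c} =
        cellAt q ⁻¹' {c.1} := by
      ext y; simp [Fin.ext_iff]
    rw [this]
    exact measurable_cellAt q (measurableSet_singleton _)
  exact (Measurable.of_discrete (f := fun x : Fin q => L x)).comp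
    (h1.comp (measurable_const.mul measurable_id))

theorem measurableSet_lab_lt (a b : ℤ) :
    MeasurableSet {u : ℝ | lab q L ((a : ℝ) * u) < lab q L ((b : ℝ) * u)} := by
  have h := ((measurable_lab (q := q) (L := L) a).prodMk (measurable_lab (q := q) (L := L) b))
  exact h (MeasurableSet.of_discrete (s := {x : Fin q × Fin q | x.1 < x.2}))

theorem measurableSet_forall_lt (E : Finset ℤ) (P : ℤ → Prop) (a b : ℤ → ℤ) :
    MeasurableSet {u : ℝ | ∀ g ∈ E, P g →
      lab q L ((a g : ℝ) * u) < lab q L ((b g : ℝ) * u)} := by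
  have : {u : ℝ | ∀ g ∈ E, P g → lab q L ((a g : ℝ) * u) < lab q L ((b g : ℝ) * u)} =
      ⋂ g ∈ E, {u : ℝ | P g → lab q L ((a g : ℝ) * u) < lab q L ((b g : ℝ) * u)} := by
    ext u; simp
  rw [this]
  refine MeasurableSet.biInter E.countable_toSet fun g _ => ?_
  by_cases hg : P g
  · simpa [hg] using measurableSet_lab_lt (q := q) (L := L) (a g) (b g)
  · simp [hg]

theorem measurableSet_pat (f : ℤ) (c : ℤ) :
    MeasurableSet {u : ℝ | f ∈ pat q L D ((c : ℝ) * u)} := by
  classical
  by_cases hf : f ∈ sdiv D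
  · have : {u : ℝ | f ∈ pat q L D ((c : ℝ) * u)} = {u : ℝ | ∀ g ∈ sdiv D, g ≠ f →
        lab q L ((((D : ℤ) / f * g * c : ℤ) : ℝ) * u) < lab q L ((((D : ℤ) * c : ℤ) : ℝ) * u)} := by
      ext u
      simp only [pat, mem_filter, hf, true_and, Set.mem_setOf_eq, Int.cast_mul, mul_assoc]
    rw [this]
    exact measurableSet_forall_lt _ (fun g => g ≠ f) (fun g => (D : ℤ) / f * g * c)
      fun _ => (D : ℤ) * c
  · simp [pat, hf]

theorem measurableSet_pat' (f : ℤ) : MeasurableSet {u : ℝ | f ∈ pat q L D u} := by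
  simpa using measurableSet_pat (q := q) (L := L) (D := D) f 1

theorem measurableSet_wins (hD : 0 < D) (f : ℤ) : MeasurableSet {u : ℝ | Wins q L D f u} := by
  simp only [← mem_pat_mul hD]
  exact measurableSet_pat f f

theorem pat_periodic (z : ℝ) : pat q L D (z + 1) = pat q L D z := by
  classical
  have h : ∀ a : ℤ, lab q L ((a : ℝ) * (z + 1)) = lab q L ((a : ℝ) * z) := by
    intro a
    simp only [lab]
    congr 2
    rw [cellAt, cellAt, mul_add, mul_one, Int.fract_add_intCast]
  simp only [pat, h]

theorem pat_congr {z z' : ℝ} (hz : Irrational z) (hD : 0 < D)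
    (hz' : ∃ c : ℕ, z' = (c + 1 / 2) / (q * (D * D) : ℕ))
    (hc : cellAt (q * (D * D)) z = cellAt (q * (D * D)) z') :
    pat q L D z = pat q L D z' := by
  classical
  have hlab : ∀ a : ℤ, a ∣ ((D * D : ℕ) : ℤ) →
      lab q L ((a : ℝ) * z) = lab q L ((a : ℝ) * z') := by
    intro a ha
    simp only [lab]
    congr 2
    exact cellAt_mul_congr (NeZero.pos q) ha (Nat.mul_pos hD hD) hz hz' hc
  refine Finset.filter_congr fun f hf => ?_
  refine forall_congr' fun g => forall_congr' fun hg => forall_congr' fun _ => ?_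
  rw [hlab ((D : ℤ) / f * g) (by
      push_cast
      exact mul_dvd_mul (Int.ediv_dvd_of_dvd ((mem_sdiv hD).1 hf)) ((mem_sdiv hD).1 hg)),
    hlab (D : ℤ) (by push_cast; exact dvd_mul_right _ _)]

end Tiling

open MeasureTheory Finset Tiling in
/-- Cells of finitely many shapes whose preimages tile the circle, almost invariant under all
multipliers up to `M`. -/
theorem tilingGoal : TilingGoal := by
  intro M η hη
  classical
  set B := M.factorial
  have hB : 0 < B := Nat.factorial_pos M
  set Ms : Finset ℤ := (Finset.Icc (-(M : ℤ)) M).filter (fun m => m ≠ 0)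
  set κ : ℝ := min 1 (η / (8 * ((Ms.card : ℝ) + 1)))
  have hκ : 0 < κ := lt_min one_pos (by positivity)
  obtain ⟨R, hR1, hR⟩ := exists_slow B hB hκ
  set D := B ^ (R + 1)
  have hD : 0 < D := pow_pos hB _
  set E := sdiv D
  set E₀ := sdiv (B ^ R)
  have hEpos : (0 : ℝ) < E.card := by
    exact_mod_cast card_pos.2 ⟨1, (mem_sdiv hD).2 (one_dvd _)⟩
  have hsub : E₀ ⊆ E := fun f hf => (mem_sdiv hD).2
    (((mem_sdiv (pow_pos hB R)).1 hf).trans
      (Int.natCast_dvd_natCast.2 (pow_dvd_pow B (Nat.le_succ R))))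
  -- the number of cells
  obtain ⟨q, hq2, hq⟩ : ∃ q : ℕ, 2 ≤ q ∧
      (2 * (E.card : ℝ)) ^ 2 * (2 / q) ≤ κ := by
    obtain ⟨q, hq⟩ := exists_nat_ge ((2 * (E.card : ℝ)) ^ 2 * 2 / κ)
    refine ⟨max q 2, le_max_right _ _, ?_⟩
    have hpos : (0 : ℝ) < ((max q 2 : ℕ) : ℝ) := by
      exact_mod_cast (show 0 < max q 2 by omega)
    rw [← mul_div_assoc, div_le_iff₀ hpos]
    have := (div_le_iff₀ hκ).1 hq
    have h2 : (q : ℝ) ≤ ((max q 2 : ℕ) : ℝ) := by exact_mod_cast le_max_left q 2
    nlinarith
  have : NeZero q := ⟨by omega⟩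
  -- the points compared for a multiplier
  set U : ℤ → Finset ℤ := fun m => E ∪ E.image fun f => m * f
  set coll : ℤ → ℝ → ℝ := fun m u => ∑ a ∈ U m, ∑ b ∈ (U m).erase a,
    ind (cellAt q ((((D : ℤ) * a : ℤ) : ℝ) * u) = cellAt q ((((D : ℤ) * b : ℤ) : ℝ) * u))
  have hmeasC : ∀ a b : ℤ,
      MeasurableSet {u : ℝ | cellAt q ((a : ℝ) * u) = cellAt q ((b : ℝ) * u)} := fun a b =>
    measurableSet_eq_fun ((measurable_cellAt q).comp (measurable_const.mul measurable_id))
      ((measurable_cellAt q).comp (measurable_const.mul measurable_id))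
  have hcoll_int : ∀ m, IntervalIntegrable (coll m) volume 0 1 := fun m => by
    have e : coll m = ∑ a ∈ U m, ∑ b ∈ (U m).erase a, fun u : ℝ =>
      ind (cellAt q ((((D : ℤ) * a : ℤ) : ℝ) * u) = cellAt q ((((D : ℤ) * b : ℤ) : ℝ) * u)) := by
      funext u; simp [coll, Finset.sum_apply]
    rw [e]
    exact IntervalIntegrable.sum _ fun a _ => IntervalIntegrable.sum _ fun b _ =>
      ind_integrable (hmeasC _ _) _ _
  have hUcard : ∀ m, ((U m).card : ℝ) ≤ 2 * E.card := fun m => by
    have h1 := card_union_le E (E.image fun f => m * f)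
    have h2 := card_image_le (s := E) (f := fun f => m * f)
    have : (U m).card ≤ 2 * E.card := by simp only [U]; omega
    exact_mod_cast this
  have hcoll : ∀ m, ∫ u in (0 : ℝ)..1, coll m u ≤ κ := by
    intro m
    simp only [coll]
    rw [intervalIntegral.integral_finsetSum fun a _ => by
      simpa [Finset.sum_fn] using IntervalIntegrable.sum ((U m).erase a) fun b _ =>
        ind_integrable (hmeasC ((D : ℤ) * a) ((D : ℤ) * b)) 0 1]
    refine le_trans (Finset.sum_le_sum (g := fun a => ((U m).card : ℝ) * (2 / q)) fun a ha => ?_) ?_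
    · rw [intervalIntegral.integral_finsetSum fun b _ => ind_integrable (hmeasC _ _) _ _]
      refine (Finset.sum_le_card_nsmul _ _ (2 / (q : ℝ)) fun b hb => ?_).trans ?_
      · refine integral_collide_le hq2 fun e => (mem_erase.1 hb).1 ?_
        exact (mul_left_cancel₀ (by exact_mod_cast hD.ne') e).symm
      · rw [nsmul_eq_mul]
        exact mul_le_mul_of_nonneg_right (by exact_mod_cast card_erase_le) (by positivity)
    · rw [sum_const, nsmul_eq_mul, ← mul_assoc, ← sq]
      refine le_trans ?_ hq
      gcongr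
      exact hUcard m
  have hcoll_nonneg : ∀ m u, 0 ≤ coll m u := fun m u =>
    sum_nonneg fun a _ => sum_nonneg fun b _ => ind_nonneg _
  have hinj : ∀ m u, coll m u < 1 →
      Set.InjOn (fun a : ℤ => (⟨cellAt q ((((D : ℤ) * a : ℤ) : ℝ) * u),
        cellAt_lt (NeZero.pos q) _⟩ : Fin q)) (U m) := by
    intro m u h a ha b hb hab
    by_contra hne
    have hab' : cellAt q ((((D : ℤ) * a : ℤ) : ℝ) * u) =
        cellAt q ((((D : ℤ) * b : ℤ) : ℝ) * u) := congrArg Fin.val hab
    have h1 : (1 : ℝ) ≤ coll m u := by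
      refine le_trans ?_ (single_le_sum (fun x _ => sum_nonneg fun y _ => ind_nonneg _) ha)
      refine le_trans ?_ (single_le_sum (fun y _ => ind_nonneg _)
        (mem_erase.2 ⟨fun e => hne e.symm, hb⟩))
      rw [ind_pos hab']
    linarith
  -- the loss at a multiplier, for every labelling
  set bad : ℤ → Equiv.Perm (Fin q) → ℝ → ℝ := fun m L v =>
    ∑ f ∈ E, ind (Wins q L D f ((m : ℝ) * v) ∧ ¬ Wins q L D (m * f) v)
  have hbad_int : ∀ m L, IntervalIntegrable (bad m L) volume 0 1 := by
    intro m L
    have e : bad m L = ∑ f ∈ E, fun v : ℝ =>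
        ind (Wins q L D f ((m : ℝ) * v) ∧ ¬ Wins q L D (m * f) v) := by
      funext v; simp [bad, Finset.sum_apply]
    rw [e]
    exact IntervalIntegrable.sum _ fun f _ => ind_integrable
      (((measurableSet_wins hD f).preimage (measurable_const.mul measurable_id)).inter
        (measurableSet_wins hD (m * f)).compl) _ _
  set Nperm : ℝ := (Fintype.card (Equiv.Perm (Fin q)) : ℝ)
  have hNperm : 0 < Nperm := by simp only [Nperm]; exact_mod_cast Fintype.card_pos
  have hpoint : ∀ m ∈ Ms, ∀ v, ∑ L, bad m L v ≤ Nperm * (coll m v + 2 * κ) := by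
    intro m hm v
    obtain ⟨hmM, hm0⟩ := mem_filter.1 hm
    have hbad1 : ∀ L, bad m L v ≤ 1 := by
      intro L
      by_cases h : ∃ f ∈ E, Wins q L D f ((m : ℝ) * v)
      · obtain ⟨f, hf, hw⟩ := h
        simp only [bad]
        rw [sum_eq_single f]
        · exact ind_le_one _
        · exact fun g _ hne => ind_neg fun hg => hne (wins_unique hg.1 hw)
        · exact fun h' => absurd hf h'
      · refine le_trans (le_of_eq (sum_eq_zero fun f hf => ?_)) zero_le_one
        exact ind_neg fun hg => h ⟨f, hf, hg.1⟩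
    by_cases hc : 1 ≤ coll m v
    · calc ∑ L, bad m L v ≤ ∑ _L : Equiv.Perm (Fin q), (1 : ℝ) := sum_le_sum fun L _ => hbad1 L
        _ = Nperm := by simp [Nperm]
        _ ≤ Nperm * (coll m v + 2 * κ) := le_mul_of_one_le_right hNperm.le (by linarith)
    push Not at hc
    set cl : ℤ → Fin q := fun a =>
      ⟨cellAt q ((((D : ℤ) * a : ℤ) : ℝ) * v), cellAt_lt (NeZero.pos q) _⟩
    have hcl : Set.InjOn cl (U m) := hinj m v hc
    set I := E.filter fun x => x ∈ E.image fun f => m * f
    have hIU : I ⊆ U m := fun x hx => mem_union_left _ (mem_filter.1 hx).1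
    have hbadle : ∀ L, bad m L v ≤
        ∑ x ∈ U m \ I, ind (∀ y ∈ U m, y ≠ x → L (cl y) < L (cl x)) := by
      intro L
      obtain ⟨x, hx, hmax⟩ := (U m).exists_max_image (fun y => L (cl y))
        ⟨1, mem_union_left _ ((mem_sdiv hD).2 (one_dvd _))⟩
      have hwin : ∀ y ∈ U m, y ≠ x → L (cl y) < L (cl x) := fun y hy hne =>
        lt_of_le_of_ne (hmax y hy) fun e => hne (hcl hy hx (L.injective e))
      by_cases hxI : x ∈ I
      · refine le_trans (le_of_eq (sum_eq_zero fun f hf => ind_neg ?_))
          (sum_nonneg fun y _ => ind_nonneg _)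
        rintro ⟨hw, hnot⟩
        obtain ⟨hxE, hxm⟩ := mem_filter.1 hxI
        obtain ⟨f₀, hf₀, rfl⟩ := mem_image.1 hxm
        have hw₀ : Wins q L D f₀ ((m : ℝ) * v) := by
          refine ⟨hf₀, fun g hg hne => ?_⟩
          have := hwin (m * g) (mem_union_right _ (mem_image_of_mem _ hg))
            (fun e => hne (mul_left_cancel₀ hm0 e))
          have e : ∀ g : ℤ, ((((D : ℤ) * (m * g) : ℤ) : ℝ)) * v =
              ((((D : ℤ) * g : ℤ) : ℝ)) * ((m : ℝ) * v) := fun g => by push_cast; ring
          simp only [cl, e] at this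
          exact this
        obtain rfl := wins_unique hw hw₀
        refine hnot ⟨hxE, fun g hg hne => ?_⟩
        simpa only [cl, lab] using hwin g (mem_union_left _ hg) hne
      · refine (hbad1 L).trans ?_
        rw [← ind_pos hwin]
        exact single_le_sum (f := fun z => ind (∀ y ∈ U m, y ≠ z → L (cl y) < L (cl z)))
          (fun z _ => ind_nonneg _) (mem_sdiff.2 ⟨hx, hxI⟩)
    refine (sum_le_sum fun L _ => hbadle L).trans ?_
    rw [sum_comm]
    have hmB : m ∣ (B : ℤ) := by
      rw [← Int.natAbs_dvd, Int.natCast_dvd_natCast]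
      have := Finset.mem_Icc.1 hmM
      exact Nat.dvd_factorial (Int.natAbs_pos.2 hm0) (by omega)
    have hI : (E₀.card : ℝ) ≤ I.card := by
      have : (E₀.image fun f => m * f) ⊆ I := by
        intro x hx
        obtain ⟨f, hf, rfl⟩ := mem_image.1 hx
        refine mem_filter.2 ⟨(mem_sdiv hD).2 ?_, mem_image_of_mem _ (hsub hf)⟩
        have h := mul_dvd_mul hmB ((mem_sdiv (pow_pos hB R)).1 hf)
        refine h.trans (dvd_of_eq ?_)
        simp only [D, pow_succ]
        push_cast
        ring
      have h := card_le_card this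
      rw [card_image_of_injective _ (fun a b h => mul_left_cancel₀ hm0 h)] at h
      exact_mod_cast h
    have hUI : ((U m \ I).card : ℝ) ≤ 2 * κ * (U m).card := by
      rw [card_sdiff_of_subset hIU, Nat.cast_sub (card_le_card hIU)]
      have h1 : (E.card : ℝ) ≤ (U m).card := by
        exact_mod_cast card_le_card (subset_union_left : E ⊆ U m)
      have h2 : ((U m).card : ℝ) + I.card ≤ 2 * E.card := by
        have hIeq : I = E ∩ E.image fun f => m * f := by ext; simp [I]
        have := card_union_add_card_inter E (E.image fun f => m * f)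
        have h3 := card_image_le (s := E) (f := fun f => m * f)
        rw [hIeq]
        exact_mod_cast (show (U m).card + (E ∩ E.image fun f => m * f).card ≤ 2 * E.card by
          simp only [U]; omega)
      nlinarith [mul_le_mul_of_nonneg_left h1 hκ.le]
    have hU0 : (0 : ℝ) < (U m).card := lt_of_lt_of_le hEpos
      (by exact_mod_cast card_le_card (subset_union_left : E ⊆ U m))
    calc ∑ x ∈ U m \ I, ∑ L : Equiv.Perm (Fin q), ind (∀ y ∈ U m, y ≠ x → L (cl y) < L (cl x))
        = ∑ _x ∈ U m \ I, Nperm / (U m).card := sum_congr rfl fun x hx => by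
          rw [eq_div_iff hU0.ne', mul_comm]
          exact sum_perm_max (U m) cl hcl (mem_sdiff.1 hx).1
      _ = ((U m \ I).card : ℝ) * (Nperm / (U m).card) := by rw [sum_const, nsmul_eq_mul]
      _ ≤ 2 * κ * (U m).card * (Nperm / (U m).card) :=
          mul_le_mul_of_nonneg_right hUI (by positivity)
      _ = Nperm * (2 * κ) := by field_simp
      _ ≤ _ := mul_le_mul_of_nonneg_left (by linarith [hcoll_nonneg m v]) hNperm.le
  -- choose the labelling
  obtain ⟨L, hL⟩ : ∃ L, ∀ m ∈ Ms, ∫ v in (0 : ℝ)..1, bad m L v ≤ η := by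
    have htot : ∑ L, ∑ m ∈ Ms, ∫ v in (0 : ℝ)..1, bad m L v ≤ Nperm * η := by
      rw [sum_comm]
      calc ∑ m ∈ Ms, ∑ L, ∫ v in (0 : ℝ)..1, bad m L v
          ≤ ∑ _m ∈ Ms, Nperm * (3 * κ) := sum_le_sum fun m hm => by
            rw [← intervalIntegral.integral_finsetSum fun L _ => hbad_int m L]
            refine (intervalIntegral.integral_mono zero_le_one ?_
              (((hcoll_int m).add (intervalIntegrable_const (c := 2 * κ))).const_mul Nperm)
              (hpoint m hm)).trans ?_
            · simpa [Finset.sum_fn] using IntervalIntegrable.sum univ fun L _ => hbad_int m L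
            · rw [intervalIntegral.integral_const_mul, intervalIntegral.integral_add (hcoll_int m)
                intervalIntegrable_const, intervalIntegral.integral_const]
              refine mul_le_mul_of_nonneg_left ?_ hNperm.le
              simp only [sub_zero, one_smul]
              linarith [hcoll m]
        _ = Nperm * ((Ms.card : ℝ) * (3 * κ)) := by rw [sum_const, nsmul_eq_mul]; ring
        _ ≤ Nperm * η := by
            refine mul_le_mul_of_nonneg_left ?_ hNperm.le
            calc (Ms.card : ℝ) * (3 * κ)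
                ≤ ((Ms.card : ℝ) + 1) * (3 * (η / (8 * ((Ms.card : ℝ) + 1)))) := by
                  gcongr
                  · linarith
                  · exact min_le_right _ _
              _ = 3 / 8 * η := by field_simp
              _ ≤ η := by linarith
    obtain ⟨L, -, hL⟩ := exists_le_of_sum_le
      (f := fun L => ∑ m ∈ Ms, ∫ v in (0 : ℝ)..1, bad m L v)
      (g := fun _ : Equiv.Perm (Fin q) => η) univ_nonempty
      (by rw [sum_const, nsmul_eq_mul, card_univ]; exact htot)
    refine ⟨L, fun m hm => le_trans ?_ hL⟩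
    exact single_le_sum (f := fun m' => ∫ v in (0 : ℝ)..1, bad m' L v)
      (fun m' _ => intervalIntegral.integral_nonneg zero_le_one
        fun v _ => sum_nonneg fun f _ => ind_nonneg _) hm
  -- shapes and cells
  set Q := q * (D * D)
  have hQ : 0 < Q := Nat.mul_pos (NeZero.pos q) (Nat.mul_pos hD hD)
  set P : ℕ → Finset ℤ := fun c => pat q L D ((c + 1 / 2) / (Q : ℝ))
  set Sh := ((Finset.range Q).image P).filter fun G => G.Nonempty
  set G : Fin Sh.card → Finset ℤ := fun i => (Sh.equivFin.symm i).1
  set C : Fin Sh.card → Finset ℕ := fun i => (Finset.range Q).filter fun c => P c = G i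
  have hpat : ∀ z : ℝ, Irrational z → pat q L D z = P (cellAt Q z) := by
    intro z hz
    refine pat_congr hz hD ⟨cellAt Q z, rfl⟩ ?_
    have hlt : (cellAt Q z : ℝ) + 1 ≤ Q := by exact_mod_cast cellAt_lt hQ z
    show cellAt Q z = cellAt Q (((cellAt Q z : ℝ) + 1 / 2) / (Q : ℝ))
    set c := cellAt Q z
    have hQR : (0 : ℝ) < Q := by exact_mod_cast hQ
    rw [cellAt, Int.fract_eq_self.2 ⟨by positivity, by rw [div_lt_one hQR]; linarith⟩,
      mul_div_cancel₀ _ hQR.ne', eq_comm, Nat.floor_eq_iff (by positivity)]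
    constructor <;> linarith
  -- sums over shapes are integrals
  have hstep : ∀ Φ : Finset ℤ → ℝ, Φ ∅ = 0 →
      IntervalIntegrable (fun z => Φ (pat q L D z)) volume 0 1 →
      ∑ i, Φ (G i) * (C i).card / Q = ∫ z in (0 : ℝ)..1, Φ (pat q L D z) := by
    intro Φ h0 hint
    rw [integral_step hQ (Φ := fun c => Φ (P c)) ?_ hint, ← sum_div]
    · congr 1
      calc ∑ i, Φ (G i) * (C i).card
          = ∑ g ∈ Sh, Φ g * ((Finset.range Q).filter fun c => P c = g).card := by
            rw [← sum_coe_sort Sh]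
            exact Fintype.sum_equiv Sh.equivFin.symm _ _ fun i => rfl
        _ = ∑ g ∈ (Finset.range Q).image P,
              Φ g * ((Finset.range Q).filter fun c => P c = g).card := by
            refine sum_subset (filter_subset _ _) fun g hg hns => ?_
            have : g = ∅ := not_nonempty_iff_eq_empty.1 fun hne =>
              hns (mem_filter.2 ⟨hg, hne⟩)
            rw [this, h0, zero_mul]
        _ = ∑ c ∈ Finset.range Q, Φ (P c) := by
            rw [← sum_fiberwise_of_maps_to (fun c hc => mem_image_of_mem P hc) fun c => Φ (P c)]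
            refine sum_congr rfl fun g _ => ?_
            rw [sum_congr rfl (fun c hc => by rw [(mem_filter.1 hc).2]), sum_const,
              nsmul_eq_mul, mul_comm]
    · intro c hc
      filter_upwards [(Set.countable_range (Rat.cast : ℚ → ℝ)).ae_notMem volume] with u hu hmem
      have hQR : (0 : ℝ) < Q := by exact_mod_cast hQ
      obtain ⟨h1, h2⟩ := hmem
      rw [div_lt_iff₀ hQR] at h1
      rw [lt_div_iff₀ hQR] at h2
      have hc1 : (c : ℝ) + 1 ≤ Q := by exact_mod_cast hc
      have hcell : cellAt Q u = c := by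
        have hu0 : 0 ≤ u := by
          by_contra h
          push Not at h
          nlinarith [Nat.cast_nonneg (α := ℝ) c]
        have hu1 : u < 1 := by
          by_contra h
          push Not at h
          nlinarith
        rw [cellAt, Int.fract_eq_self.2 ⟨hu0, hu1⟩, Nat.floor_eq_iff (by positivity)]
        constructor <;> linarith
      rw [hpat u hu, hcell]
  have hmemP : ∀ f, MeasurableSet {z : ℝ | f ∈ pat q L D z} := fun f => measurableSet_pat' f
  refine ⟨Sh.card, Q, G, C, hQ, fun i => ⟨(mem_filter.1 (Sh.equivFin.symm i).2).2,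
    filter_subset _ _⟩, ?_, ?_, ?_, ?_⟩
  · intro i f hf
    obtain ⟨c, -, hc⟩ := mem_image.1 (mem_filter.1 (Sh.equivFin.symm i).2).1
    have hfE : f ∈ E := by
      have : f ∈ P c := by rw [hc]; exact hf
      exact (mem_filter.1 this).1
    have hdvd := (mem_sdiv hD).1 hfE
    refine ⟨fun e => ?_, fun p hp hpf => ?_⟩
    · rw [e, zero_dvd_iff] at hdvd
      exact hD.ne' (by exact_mod_cast hdvd)
    · have : f.natAbs ∣ D := by simpa using Int.natAbs_dvd_natAbs.2 hdvd
      exact (Nat.Prime.dvd_factorial hp).1 (hp.dvd_of_dvd_pow (hpf.trans this))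
  · filter_upwards [(Set.countable_range (Rat.cast : ℚ → ℝ)).ae_notMem volume] with u hu
    intro i j f hf g hg hfi hgj
    have key : ∀ (i : Fin Sh.card) (f : ℤ), f ∈ G i → InCells Q (C i) ((f : ℝ) * u) →
        Wins q L D f u ∧ pat q L D ((f : ℝ) * u) = G i := by
      intro i f hf hin
      have hf0 : f ≠ 0 := by
        obtain ⟨c, -, hc⟩ := mem_image.1 (mem_filter.1 (Sh.equivFin.symm i).2).1
        have : f ∈ P c := by rw [hc]; exact hf
        exact (mem_filter.1 (mem_filter.1 this).1).2.1
      have hP : P (cellAt Q ((f : ℝ) * u)) = G i := (mem_filter.1 hin).2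
      have he : pat q L D ((f : ℝ) * u) = G i := by
        rw [hpat _ ((show Irrational u from hu).intCast_mul hf0), hP]
      exact ⟨(mem_pat_mul hD f u).1 (he ▸ hf), he⟩
    obtain ⟨w1, e1⟩ := key i f hf hfi
    obtain ⟨w2, e2⟩ := key j g hg hgj
    obtain rfl := wins_unique w1 w2
    have : G i = G j := e1.symm.trans e2
    exact ⟨Sh.equivFin.symm.injective (Subtype.ext this), rfl⟩
  · -- coverage
    have hcard : ∀ z, ((pat q L D z).card : ℝ) = ∑ f ∈ E, ind (f ∈ pat q L D z) := by
      intro z
      have : E.filter (fun f => f ∈ pat q L D z) = pat q L D z := by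
        ext f
        simp only [mem_filter, and_iff_right_iff_imp]
        exact fun h => (mem_filter.1 h).1
      rw [sum_ind, this]
    have hint : IntervalIntegrable (fun z => ((pat q L D z).card : ℝ)) volume 0 1 := by
      simp only [hcard]
      simpa [Finset.sum_fn] using
        IntervalIntegrable.sum E fun f _ => ind_integrable (hmemP f) 0 1
    rw [hstep (fun S => (S.card : ℝ)) (by simp) hint]
    simp only [hcard]
    rw [intervalIntegral.integral_finsetSum fun f _ => ind_integrable (hmemP f) _ _]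
    have hchange : ∀ f ∈ E, ∫ z in (0 : ℝ)..1, ind (f ∈ pat q L D z) =
        ∫ u in (0 : ℝ)..1, ind (Wins q L D f u) := by
      intro f hf
      have hf0 : f ≠ 0 := (mem_filter.1 hf).2.1
      have := integral_mul_int (f := fun z => ind (f ∈ pat q L D z))
        (fun z => by simp only [pat_periodic]) (ind_integrable (hmemP f)) hf0
      rw [← this]
      simp only [mem_pat_mul hD]
    rw [sum_congr rfl hchange,
      ← intervalIntegral.integral_finsetSum fun f _ => ind_integrable (measurableSet_wins hD f) _ _]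
    have hlow : ∀ u, 1 - coll 1 u ≤ ∑ f ∈ E, ind (Wins q L D f u) := by
      intro u
      by_cases hc : 1 ≤ coll 1 u
      · exact le_trans (by linarith) (sum_nonneg fun f _ => ind_nonneg _)
      push Not at hc
      have hU1 : U 1 = E := by simp [U]
      obtain ⟨x, hx, hmax⟩ := E.exists_max_image
        (fun a => lab q L ((((D : ℤ) * a : ℤ) : ℝ) * u)) ⟨1, (mem_sdiv hD).2 (one_dvd _)⟩
      have hw : Wins q L D x u := ⟨hx, fun g hg hne => lt_of_le_of_ne (hmax g hg) fun e =>
        hne (hinj 1 u hc (by rw [hU1]; exact hg) (by rw [hU1]; exact hx) (L.injective e))⟩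
      refine le_trans ?_ (single_le_sum (fun f _ => ind_nonneg _) hx)
      rw [ind_pos hw]
      linarith [hcoll_nonneg 1 u]
    refine le_trans ?_ (intervalIntegral.integral_mono zero_le_one
      ((intervalIntegrable_const (c := (1 : ℝ))).sub (hcoll_int 1))
      (by simpa [Finset.sum_fn] using IntervalIntegrable.sum E fun f _ =>
        ind_integrable (measurableSet_wins hD f) 0 1) hlow)
    rw [intervalIntegral.integral_sub intervalIntegrable_const (hcoll_int 1),
      intervalIntegral.integral_const]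
    simp only [sub_zero, one_smul]
    have hκη : κ ≤ η := (min_le_right _ _).trans
      (div_le_self hη.le (by linarith [Nat.cast_nonneg (α := ℝ) Ms.card]))
    linarith [hcoll 1]
  · intro m hm hmM
    have hmMs : m ∈ Ms := mem_filter.2 ⟨Finset.mem_Icc.2 (abs_le.1 hmM), hm⟩
    refine le_of_eq_of_le ?_ (hL m hmMs)
    have hset : ∀ f, MeasurableSet {z : ℝ | f ∈ pat q L D z ∧ m * f ∉ pat q L D z} := fun f =>
      (hmemP f).inter (hmemP (m * f)).compl
    have hcard : ∀ z, (((pat q L D z).filter fun g => m * g ∉ pat q L D z).card : ℝ) =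
        ∑ f ∈ E, ind (f ∈ pat q L D z ∧ m * f ∉ pat q L D z) := by
      intro z
      have : E.filter (fun f => f ∈ pat q L D z ∧ m * f ∉ pat q L D z) =
          (pat q L D z).filter fun g => m * g ∉ pat q L D z := by
        ext f
        simp only [mem_filter, and_iff_right_iff_imp]
        exact fun h => (mem_filter.1 h.1).1
      rw [sum_ind, this]
    have hint : IntervalIntegrable
        (fun z => (((pat q L D z).filter fun g => m * g ∉ pat q L D z).card : ℝ)) volume 0 1 := by
      simp only [hcard]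
      simpa [Finset.sum_fn] using IntervalIntegrable.sum E fun f _ => ind_integrable (hset f) 0 1
    rw [hstep (fun S => ((S.filter fun g => m * g ∉ S).card : ℝ)) (by simp) hint]
    simp only [hcard, bad]
    have hset' : ∀ f : ℤ, MeasurableSet
        {v : ℝ | Wins q L D f ((m : ℝ) * v) ∧ ¬ Wins q L D (m * f) v} := fun f =>
      ((measurableSet_wins hD f).preimage (measurable_const.mul measurable_id)).inter
        (measurableSet_wins hD (m * f)).compl
    rw [intervalIntegral.integral_finsetSum fun f _ => ind_integrable (hset f) _ _,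
      intervalIntegral.integral_finsetSum fun f _ => ind_integrable (hset' f) _ _]
    refine sum_congr rfl fun f hf => ?_
    have hf0 : f ≠ 0 := (mem_filter.1 hf).2.1
    have := integral_mul_int (f := fun z => ind (f ∈ pat q L D z ∧ m * f ∉ pat q L D z))
      (fun z => by simp only [pat_periodic]) (ind_integrable (hset f)) (mul_ne_zero hm hf0)
    rw [← this]
    refine intervalIntegral.integral_congr fun v _ => ?_
    congr 1
    rw [← mem_pat_mul hD f, ← mem_pat_mul hD (m * f)]
    have : ((f : ℝ)) * ((m : ℝ) * v) = ((m * f : ℤ) : ℝ) * v := by push_cast; ring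
    rw [this]

end Vale.Agent.P130.Lebesgue
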