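import Vale.Agent.P130.Lebesgue.Defs

/-! Cells of the circle, integrals of step and periodic functions, permutation labels. -/

namespace Vale.Agent.P130.Lebesgue.Tiling

open MeasureTheory Finset Set

/-- The cell of the grid of step `1/q` containing the class of `y`. -/
noncomputable def cellAt (q : ℕ) (y : ℝ) : ℕ := ⌊(q : ℝ) * Int.fract y⌋₊

theorem cellAt_lt {q : ℕ} (hq : 0 < q) (y : ℝ) : cellAt q y < q := by
  rw [cellAt, Nat.floor_lt (mul_nonneg (Nat.cast_nonneg q) (Int.fract_nonneg y))]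
  calc (q : ℝ) * Int.fract y < q * 1 :=
        mul_lt_mul_of_pos_left (Int.fract_lt_one y) (by exact_mod_cast hq)
    _ = q := mul_one _

theorem measurable_cellAt (q : ℕ) : Measurable (cellAt q) := by
  unfold cellAt
  fun_prop

theorem cellAt_eq_mod {q : ℕ} (hq : 0 < q) (y : ℝ) :
    (cellAt q y : ℤ) = ⌊(q : ℝ) * y⌋ % q := by
  have h0 : 0 ≤ (q : ℝ) * Int.fract y := mul_nonneg (Nat.cast_nonneg q) (Int.fract_nonneg y)
  have hlt : (cellAt q y : ℤ) < q := by exact_mod_cast cellAt_lt hq y
  have hcast : (cellAt q y : ℤ) = ⌊(q : ℝ) * Int.fract y⌋ := Int.natCast_floor_eq_floor h0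
  have : ⌊(q : ℝ) * y⌋ = ⌊(q : ℝ) * Int.fract y⌋ + (q : ℤ) * ⌊y⌋ := by
    rw [← Int.floor_add_intCast]
    congr 1
    push_cast
    rw [← mul_add, Int.fract_add_floor]
  rw [this, Int.add_mul_emod_self_left, ← hcast,
    Int.emod_eq_of_lt (Int.natCast_nonneg _) hlt]

/-- The cell of `a z` is determined by the cell of `z` in a grid refined by `a`. -/
theorem cellAt_mul_congr {q k : ℕ} {a : ℤ} (hq : 0 < q) (hk : a ∣ (k : ℤ)) (hk0 : 0 < k)
    {z z' : ℝ} (hz : Irrational z) (hz' : ∃ c : ℕ, z' = (c + 1 / 2) / (q * k : ℕ))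
    (hc : cellAt (q * k) z = cellAt (q * k) z') : cellAt q (a * z) = cellAt q (a * z') := by
  have hQ : 0 < q * k := Nat.mul_pos hq hk0
  have hm : ⌊((q * k : ℕ) : ℝ) * z⌋ % (q * k : ℕ) = ⌊((q * k : ℕ) : ℝ) * z'⌋ % (q * k : ℕ) := by
    rw [← cellAt_eq_mod hQ, ← cellAt_eq_mod hQ, hc]
  obtain ⟨t, ht⟩ := Int.ModEq.dvd (hm : _ ≡ _ [ZMOD ((q * k : ℕ) : ℤ)])
  obtain ⟨r, hr⟩ := hk
  have hr0 : r ≠ 0 := by
    rintro rfl
    simp only [mul_zero] at hr
    omega
  set Z := ((q * k : ℕ) : ℝ) * z with hZ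
  set Z' := ((q * k : ℕ) : ℝ) * z' with hZ'
  set b := ⌊Z'⌋
  have hbZ : ⌊Z⌋ = b - (q * k : ℕ) * t := by omega
  -- the two values of `q a y` are `Z / r` up to a multiple of `q`
  have hval : ∀ y : ℝ, (q : ℝ) * (a * y) = ((q * k : ℕ) : ℝ) * y / r := by
    intro y
    have hr' : (r : ℝ) ≠ 0 := Int.cast_ne_zero.2 hr0
    have : (k : ℝ) = a * r := by exact_mod_cast congrArg (fun x : ℤ => (x : ℝ)) hr
    rw [eq_div_iff hr']
    push_cast
    rw [this]
    ring
  rw [← Int.natCast_inj, cellAt_eq_mod hq, cellAt_eq_mod hq, hval, hval]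
  have hfl : ∀ (X : ℝ) (B : ℤ), (B : ℝ) < X → X < B + 1 → ⌊X / r⌋ = ⌊((B : ℝ) + 1 / 2) / r⌋ := by
    intro X B h1 h2
    rw [Int.floor_eq_iff]
    obtain ⟨g1, g2⟩ := Int.floor_eq_iff.1 (rfl : ⌊((B : ℝ) + 1 / 2) / r⌋ = _)
    set F := ⌊((B : ℝ) + 1 / 2) / r⌋
    rcases lt_or_gt_of_ne hr0 with hneg | hpos
    · have hrR : (r : ℝ) < 0 := by exact_mod_cast hneg
      rw [le_div_iff_of_neg hrR] at g1
      rw [div_lt_iff_of_neg hrR] at g2
      have i1 : (B : ℤ) + 1 ≤ F * r := by
        have : ((B : ℤ) : ℝ) < ((F * r : ℤ) : ℝ) := by push_cast; linarith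
        exact Int.add_one_le_of_lt (by exact_mod_cast this)
      have i2 : (F + 1) * r ≤ B := by
        have : (((F + 1) * r : ℤ) : ℝ) < ((B + 1 : ℤ) : ℝ) := by push_cast; linarith
        exact Int.le_of_lt_add_one (by exact_mod_cast this)
      have j1 : ((B : ℤ) : ℝ) + 1 ≤ F * r := by exact_mod_cast i1
      have j2 : ((F : ℝ) + 1) * r ≤ B := by exact_mod_cast i2
      exact ⟨(le_div_iff_of_neg hrR).2 (by linarith), (div_lt_iff_of_neg hrR).2 (by linarith)⟩
    · have hrR : (0 : ℝ) < r := by exact_mod_cast hpos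
      rw [le_div_iff₀ hrR] at g1
      rw [div_lt_iff₀ hrR] at g2
      have i1 : F * r ≤ B := by
        have : ((F * r : ℤ) : ℝ) < ((B + 1 : ℤ) : ℝ) := by push_cast; linarith
        exact Int.le_of_lt_add_one (by exact_mod_cast this)
      have i2 : B + 1 ≤ (F + 1) * r := by
        have : ((B : ℤ) : ℝ) < (((F + 1) * r : ℤ) : ℝ) := by push_cast; linarith
        exact Int.add_one_le_of_lt (by exact_mod_cast this)
      have j1 : (F : ℝ) * r ≤ B := by exact_mod_cast i1
      have j2 : ((B : ℤ) : ℝ) + 1 ≤ ((F : ℝ) + 1) * r := by exact_mod_cast i2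
      exact ⟨(le_div_iff₀ hrR).2 (by linarith), (div_lt_iff₀ hrR).2 (by linarith)⟩
  have hne : (⌊Z⌋ : ℝ) < Z := by
    refine lt_of_le_of_ne (Int.floor_le Z) fun h => ?_
    exact ((hz.natCast_mul hQ.ne').ne_int ⌊Z⌋) (by rw [← hZ]; exact h.symm)
  obtain ⟨c, rfl⟩ := hz'
  have hb : b = (c : ℤ) := by
    rw [Int.floor_eq_iff, hZ']
    have : ((q * k : ℕ) : ℝ) ≠ 0 := by exact_mod_cast hQ.ne'
    constructor <;> rw [mul_div_cancel₀ _ this] <;> push_cast <;> linarith
  rw [hfl Z ⌊Z⌋ hne (Int.lt_floor_add_one Z), hbZ]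
  have e : ((((b - (q * k : ℕ) * t : ℤ)) : ℝ) + 1 / 2) / r = Z' / r + ((-(q * a * t) : ℤ) : ℝ) := by
    have hk' : (k : ℝ) = a * r := by exact_mod_cast congrArg (fun x : ℤ => (x : ℝ)) hr
    have hr' : (r : ℝ) ≠ 0 := Int.cast_ne_zero.2 hr0
    have : ((q * k : ℕ) : ℝ) ≠ 0 := by exact_mod_cast hQ.ne'
    rw [hZ', mul_div_cancel₀ _ this, hb]
    push_cast
    rw [hk']
    field_simp
    ring
  rw [e, Int.floor_add_intCast, show -((q : ℤ) * a * t) = (q : ℤ) * -(a * t) by ring,
    Int.add_mul_emod_self_left]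

/-! ### Integrals -/

/-- The real indicator of a proposition. -/
noncomputable def ind (p : Prop) : ℝ := @ite ℝ p (Classical.propDecidable p) 1 0

theorem ind_pos {p : Prop} (h : p) : ind p = 1 := by simp [ind, h]
theorem ind_neg {p : Prop} (h : ¬p) : ind p = 0 := by simp [ind, h]
theorem ind_nonneg (p : Prop) : 0 ≤ ind p := by unfold ind; split <;> norm_num
theorem ind_le_one (p : Prop) : ind p ≤ 1 := by unfold ind; split <;> norm_num

theorem measurable_ind {s : ℝ → Prop} (h : MeasurableSet {u | s u}) :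
    Measurable fun u => ind (s u) := by
  have : (fun u => ind (s u)) = Set.indicator {u | s u} fun _ => 1 := by
    funext u
    by_cases hu : s u
    · rw [ind_pos hu, Set.indicator_of_mem (by exact hu)]
    · rw [ind_neg hu, Set.indicator_of_notMem (by exact hu)]
  rw [this]
  exact measurable_const.indicator h

theorem intervalIntegrable_of_bdd {f : ℝ → ℝ} (hf : Measurable f) {C : ℝ} (hC : ∀ u, ‖f u‖ ≤ C)
    (a b : ℝ) : IntervalIntegrable f volume a b :=
  ⟨IntegrableOn.of_bound measure_Ioc_lt_top hf.aestronglyMeasurable C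
      (Filter.Eventually.of_forall hC),
    IntegrableOn.of_bound measure_Ioc_lt_top hf.aestronglyMeasurable C
      (Filter.Eventually.of_forall hC)⟩

theorem ind_integrable {s : ℝ → Prop} (h : MeasurableSet {u | s u}) (a b : ℝ) :
    IntervalIntegrable (fun u => ind (s u)) volume a b :=
  intervalIntegrable_of_bdd (measurable_ind h) (C := 1)
    (fun u => by rw [Real.norm_eq_abs, abs_of_nonneg (ind_nonneg _)]; exact ind_le_one _) a b

/-- Multiplication by a nonzero integer preserves the integral of a periodic function. -/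
theorem integral_mul_int {f : ℝ → ℝ} (hf : Function.Periodic f 1)
    (hint : ∀ s t : ℝ, IntervalIntegrable f volume s t) {a : ℤ} (ha : a ≠ 0) :
    ∫ u in (0 : ℝ)..1, f (a * u) = ∫ u in (0 : ℝ)..1, f u := by
  rw [intervalIntegral.integral_comp_mul_left f (Int.cast_ne_zero.2 ha)]
  have := hf.intervalIntegral_add_zsmul_eq a 0 hint
  simp only [zero_add, zsmul_eq_mul, mul_one] at this
  rw [mul_zero, mul_one, this, smul_eq_mul]
  field_simp

/-- The integral of a function of the cell. -/
theorem integral_step {Q : ℕ} (hQ : 0 < Q) {f : ℝ → ℝ} {Φ : ℕ → ℝ}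
    (hf : ∀ c < Q, ∀ᵐ u : ℝ, u ∈ Set.Ioo ((c : ℝ) / Q) ((c + 1) / Q) → f u = Φ c)
    (hint : IntervalIntegrable f volume 0 1) :
    ∫ u in (0 : ℝ)..1, f u = (∑ c ∈ Finset.range Q, Φ c) / Q := by
  have hQR : (0 : ℝ) < Q := by exact_mod_cast hQ
  have hsub : ∀ c < Q, IntervalIntegrable f volume ((c : ℝ) / Q) ((c + 1 : ℕ) / Q) := by
    intro c hc
    refine hint.mono_set ?_
    rw [Set.uIcc_of_le zero_le_one, Set.uIcc_of_le (by gcongr; push_cast; linarith)]
    refine Set.Icc_subset_Icc (by positivity) ?_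
    rw [div_le_one hQR]
    exact_mod_cast hc
  have h := intervalIntegral.sum_integral_adjacent_intervals (f := f) (μ := volume)
    (a := fun c : ℕ => (c : ℝ) / Q) hsub
  simp only [Nat.cast_zero, zero_div, div_self hQR.ne'] at h
  rw [← h, Finset.sum_div]
  refine Finset.sum_congr rfl fun c hc => ?_
  have hle : (c : ℝ) / Q ≤ ((c + 1 : ℕ) : ℝ) / Q := by gcongr; push_cast; linarith
  rw [intervalIntegral.integral_of_le hle, integral_Ioc_eq_integral_Ioo,
    setIntegral_congr_ae measurableSet_Ioo (g := fun _ => Φ c)]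
  · rw [setIntegral_const]
    simp only [Measure.real, Real.volume_Ioo, smul_eq_mul]
    rw [ENNReal.toReal_ofReal (by linarith)]
    push_cast
    field_simp
    ring
  · simpa using hf c (Finset.mem_range.1 hc)

/-- Two multiples of a point are rarely in one cell. -/
theorem integral_collide_le {q : ℕ} (hq : 2 ≤ q) {a b : ℤ} (hab : a ≠ b) :
    ∫ u in (0 : ℝ)..1, ind (cellAt q (a * u) = cellAt q (b * u)) ≤ 2 / q := by
  have hq0 : 0 < q := by omega
  have hqR : (0 : ℝ) < q := by exact_mod_cast hq0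
  set s : ℝ → Prop := fun y => Int.fract y < 1 / q ∨ 1 - 1 / q < Int.fract y
  have hs : MeasurableSet {y | s y} := by
    exact (measurableSet_lt (f := fun y : ℝ => Int.fract y) measurable_fract measurable_const).union
      (measurableSet_lt (g := fun y : ℝ => Int.fract y) measurable_const measurable_fract)
  have hper : Function.Periodic (fun y => ind (s y)) 1 := fun y => by
    simp [s, Int.fract_add_one]
  have hpt : ∀ u : ℝ, ind (cellAt q (a * u) = cellAt q (b * u)) ≤
      ind (s ((a - b : ℤ) * u)) := by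
    intro u
    by_cases h : cellAt q (a * u) = cellAt q (b * u)
    · rw [ind_pos h, ind_pos]
      have h1 := Nat.floor_le (mul_nonneg hqR.le (Int.fract_nonneg ((a : ℝ) * u)))
      have h2 := Nat.lt_floor_add_one ((q : ℝ) * Int.fract ((a : ℝ) * u))
      have h3 := Nat.floor_le (mul_nonneg hqR.le (Int.fract_nonneg ((b : ℝ) * u)))
      have h4 := Nat.lt_floor_add_one ((q : ℝ) * Int.fract ((b : ℝ) * u))
      simp only [cellAt] at h
      rw [h] at h1 h2
      set d := Int.fract ((a : ℝ) * u) - Int.fract ((b : ℝ) * u) with hd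
      have hd1 : d < 1 / q := by rw [lt_div_iff₀ hqR, hd]; linarith
      have hd2 : -(1 / (q : ℝ)) < d := by rw [neg_lt, lt_div_iff₀ hqR, hd]; linarith
      have hfr : Int.fract (((a - b : ℤ) : ℝ) * u) = Int.fract d := by
        rw [Int.fract_eq_fract]
        refine ⟨⌊(a : ℝ) * u⌋ - ⌊(b : ℝ) * u⌋, ?_⟩
        simp only [hd, Int.fract]
        push_cast
        ring
      have hq2 : (1 : ℝ) / q ≤ 1 / 2 := by
        gcongr
        exact_mod_cast hq
      show Int.fract (((a - b : ℤ) : ℝ) * u) < 1 / q ∨ 1 - 1 / q < Int.fract (((a - b : ℤ) : ℝ) * u)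
      rw [hfr]
      rcases le_or_gt 0 d with h0 | h0
      · exact Or.inl (by rw [Int.fract_eq_self.2 ⟨h0, by linarith⟩]; exact hd1)
      · have e : Int.fract d = d + 1 := by
          rw [← Int.fract_add_one d]
          exact Int.fract_eq_self.2 ⟨by linarith, by linarith⟩
        exact Or.inr (by rw [e]; linarith)
    · rw [ind_neg h]; exact ind_nonneg _
  have hne : (a - b : ℤ) ≠ 0 := sub_ne_zero.2 hab
  have hms : MeasurableSet {u : ℝ | s ((a - b : ℤ) * u)} :=
    hs.preimage (measurable_const.mul measurable_id)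
  have hmc : MeasurableSet {u : ℝ | cellAt q (a * u) = cellAt q (b * u)} :=
    measurableSet_eq_fun ((measurable_cellAt q).comp (measurable_const.mul measurable_id))
      ((measurable_cellAt q).comp (measurable_const.mul measurable_id))
  refine (intervalIntegral.integral_mono zero_le_one (ind_integrable hmc _ _)
    (ind_integrable hms _ _) hpt).trans ?_
  rw [integral_mul_int hper (ind_integrable hs) hne]
  refine le_of_eq_of_le (integral_step hq0 (Φ := fun c => ind (c = 0 ∨ c + 1 = q)) ?_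
    (ind_integrable hs _ _)) ?_
  · intro c hc
    refine Filter.Eventually.of_forall fun u hu => ?_
    obtain ⟨hu1, hu2⟩ := hu
    rw [div_lt_iff₀ hqR] at hu1
    rw [lt_div_iff₀ hqR] at hu2
    have hc1 : (c : ℝ) + 1 ≤ q := by exact_mod_cast hc
    have hf : Int.fract u = u := by
      refine Int.fract_eq_self.2 ⟨?_, ?_⟩
      · by_contra h
        push Not at h
        nlinarith [Nat.cast_nonneg (α := ℝ) c]
      · by_contra h
        push Not at h
        nlinarith
    congr 1
    simp only [s, hf, eq_iff_iff]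
    rw [lt_div_iff₀ hqR, sub_lt_iff_lt_add, ← sub_lt_iff_lt_add', lt_div_iff₀ hqR]
    constructor
    · rintro (h | h)
      · left
        by_contra h0
        have : (1 : ℝ) ≤ c := by exact_mod_cast Nat.one_le_iff_ne_zero.2 h0
        nlinarith
      · right
        by_contra h0
        have : c + 2 ≤ q := by omega
        have : (c : ℝ) + 2 ≤ q := by exact_mod_cast this
        nlinarith
    · rintro (rfl | h)
      · left; push_cast at hu2; linarith
      · right
        have : (c : ℝ) + 1 = q := by exact_mod_cast h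
        nlinarith
  · gcongr
    have hb : ∀ c : ℕ, ind (c = 0 ∨ c + 1 = q) ≤
        (if c = 0 then 1 else 0) + (if c = q - 1 then 1 else 0) := by
      intro c
      unfold ind
      split_ifs <;> first | (norm_num; done) | omega
    refine (Finset.sum_le_sum fun c _ => hb c).trans ?_
    rw [Finset.sum_add_distrib, Finset.sum_ite_eq', Finset.sum_ite_eq']
    split_ifs <;> norm_num

/-! ### Permutation labels -/

/-- For injectively placed points the largest random label is at each of them equally often. -/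
theorem sum_perm_max {α : Type} [DecidableEq α] {q : ℕ} (U : Finset α) (κ : α → Fin q)
    (hκ : Set.InjOn κ U) {x : α} (hx : x ∈ U) :
    (U.card : ℝ) * ∑ L : Equiv.Perm (Fin q), ind (∀ y ∈ U, y ≠ x → L (κ y) < L (κ x)) =
      (Fintype.card (Equiv.Perm (Fin q)) : ℝ) := by
  set Nn : α → ℝ := fun x =>
    ∑ L : Equiv.Perm (Fin q), ind (∀ y ∈ U, y ≠ x → L (κ y) < L (κ x))
  have hsym : ∀ y ∈ U, Nn y = Nn x := by
    intro y hy
    refine Fintype.sum_equiv (Equiv.mulRight (Equiv.swap (κ x) (κ y))) _ _ fun L => ?_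
    simp only [Equiv.coe_mulRight, Equiv.Perm.coe_mul, Function.comp_apply,
      Equiv.swap_apply_left]
    congr 1
    refine propext ⟨fun h z hz hzx => ?_, fun h z hz hzy => ?_⟩
    · rcases eq_or_ne z y with rfl | hzy
      · rw [Equiv.swap_apply_right]
        exact h x hx (Ne.symm hzx)
      · rw [Equiv.swap_apply_of_ne_of_ne (fun e => hzx (hκ hz hx e)) (fun e => hzy (hκ hz hy e))]
        exact h z hz hzy
    · rcases eq_or_ne z x with rfl | hzx
      · have := h y hy (Ne.symm hzy)
        rwa [Equiv.swap_apply_right] at this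
      · have := h z hz hzx
        rwa [Equiv.swap_apply_of_ne_of_ne (fun e => hzx (hκ hz hx e))
          (fun e => hzy (hκ hz hy e))] at this
  have htot : ∑ y ∈ U, Nn y = (Fintype.card (Equiv.Perm (Fin q)) : ℝ) := by
    rw [Finset.sum_comm, ← Finset.card_univ, Finset.card_eq_sum_ones, Nat.cast_sum]
    refine Finset.sum_congr rfl fun L _ => ?_
    obtain ⟨w, hw, hmax⟩ := U.exists_max_image (fun y => L (κ y)) ⟨x, hx⟩
    have hwin : ∀ y ∈ U, y ≠ w → L (κ y) < L (κ w) := fun y hy hne =>
      lt_of_le_of_ne (hmax y hy) fun e => hne (hκ hy hw (L.injective e))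
    rw [Finset.sum_eq_single w]
    · rw [ind_pos hwin, Nat.cast_one]
    · intro y hy hne
      exact ind_neg fun h => lt_irrefl _ ((h w hw hne.symm).trans (hwin y hy hne))
    · exact fun h => absurd hw h
  show (U.card : ℝ) * Nn x = _
  rw [← htot, Finset.sum_congr rfl hsym, Finset.sum_const, nsmul_eq_mul]

end Vale.Agent.P130.Lebesgue.Tiling
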